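import Vale.Agent.P354CB.Defs

/-!
Time reversal, local compactness and metrisability.
-/

open scoped ContDiff Pointwise
open Set Filter Topology

namespace Vale.Agent.P354CB38

open Vale.Agent.P354n
open Vale.Agent.P354CB

variable {M : Spc} {Reg : (R4 → ℝ) → Set R4 → Prop}

theorem g_neg_l (h : IsSpacetime Reg M) {e : M.Chart} {y : R4} (hy : y ∈ tgt e) (a b : R4) :
    M.g e y (-a) b = -M.g e y a b := by
  obtain ⟨L, hL, -, k⟩ := h.signature e y hy
  rw [k, k, hL.map_neg]
  simp only [mink, cu, cv, c1, c2, Prod.fst_neg, Prod.snd_neg]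
  ring

theorem g_neg_r (h : IsSpacetime Reg M) {e : M.Chart} {y : R4} (hy : y ∈ tgt e) (a b : R4) :
    M.g e y a (-b) = -M.g e y a b := by
  obtain ⟨L, hL, -, k⟩ := h.signature e y hy
  rw [k, k, hL.map_neg]
  simp only [mink, cu, cv, c1, c2, Prod.fst_neg, Prod.snd_neg]
  ring

theorem g_neg (h : IsSpacetime Reg M) {e : M.Chart} {y : R4} (hy : y ∈ tgt e) (a b : R4) :
    M.g e y (-a) (-b) = M.g e y a b := by
  rw [g_neg_l h hy, g_neg_r h hy, neg_neg]

theorem co_mem {e : M.Chart} {p : M.pt} (h : On e p) : co e p ∈ tgt e := (M.toE e).map_source h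

theorem sp_rev (h : IsSpacetime Reg M) : IsSpacetime Reg (rev M) where
  tensor e e' F hF y hy k := by
    obtain ⟨a, b, c⟩ := h.tensor e e' F hF y hy k
    refine ⟨a, b, ?_⟩
    have m : F y ∈ tgt (M := M) e' := hF ▸ co_mem (M := M) k
    change M.g e' (F y) (lineDeriv ℝ F y (-M.X e y)) (-M.X e' (F y)) < 0
    rwa [lineDeriv_neg, g_neg h m]
  signature := h.signature
  timelike e y hy := by
    change M.g e y (-M.X e y) (-M.X e y) < 0
    rw [g_neg h hy]
    exact h.timelike e y hy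
  continuous e := (h.continuous e).neg
  regular := h.regular

theorem st_rev (h : St M) : St (rev M) := ⟨sp_rev h.sp, h.vac⟩

theorem pre_eq (s : ℝ) (I : Set ℝ) : s +ᵥ -((fun t => s - t) ⁻¹' I) = I := by
  ext x
  rw [mem_vadd_set_iff_neg_vadd_mem, Set.mem_neg, mem_preimage, vadd_eq_add]
  ring_nf

theorem flip (h : IsSpacetime Reg M) {I : Set ℝ} {c : ℝ → M.pt} (s : ℝ) (k : Cv M I c) :
    Cv (rev M) ((fun t => s - t) ⁻¹' I) fun t => c (s - t) := by
  refine ⟨k.1.comp (by fun_prop) fun _ m => m, fun t ht e he => ?_⟩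
  obtain ⟨a, b⟩ := k.2 (s - t) ht e he
  refine ⟨ContDiffWithinAt.comp (g := fun r => co (M := M) e (c r)) (f := fun r => s - r) t a
    (by fun_prop) fun _ m => m, ?_⟩
  rintro y w rfl rfl
  have q := derivWithin_comp_const_sub (f := fun r => co (M := M) e (c r)) (a := s) (x := t)
    (s := (fun t => s - t) ⁻¹' I)
  rw [pre_eq] at q
  have m := co_mem (M := M) he
  change M.g e (co (M := M) e (c (s - t))) (derivWithin (fun r => co (M := M) e (c (s - r))) _ t)
    (derivWithin (fun r => co (M := M) e (c (s - r))) _ t) < -0 ∧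
    M.g e (co (M := M) e (c (s - t))) (derivWithin (fun r => co (M := M) e (c (s - r))) _ t)
      (-M.X e (co (M := M) e (c (s - t)))) < 0
  rw [q, g_neg h m, g_neg h m]
  exact b _ _ rfl rfl

theorem rev_rev {I : Set ℝ} {c : ℝ → M.pt} (k : Cv (rev (rev M)) I c) : Cv M I c := by
  refine ⟨k.1, fun t ht e he => ⟨(k.2 t ht e he).1, fun y w hy hw => ?_⟩⟩
  have := (k.2 t ht e he).2 y w hy hw
  change M.g e y w w < -0 ∧ M.g e y w (- -M.X e y) < 0 at this
  rwa [neg_neg] at this

theorem cv_rev (h : St M) {I : Set ℝ} {c : ℝ → M.pt} (s : ℝ) :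
    Cv (rev M) I c ↔ Cv M ((fun t => s - t) ⁻¹' I) fun t => c (s - t) := by
  refine ⟨fun k => rev_rev (flip (sp_rev h.sp) s k), fun k => ?_⟩
  have := flip h.sp s k
  simpa only [preimage_preimage, sub_sub_cancel, preimage_id'] using this

theorem pre_icc : (fun t : ℝ => 1 - t) ⁻¹' Icc 0 1 = Icc 0 1 := by
  ext x
  simp only [mem_preimage, mem_Icc]
  constructor <;> rintro ⟨a, b⟩ <;> constructor <;> linarith

theorem pre_ioo : (fun t : ℝ => 1 - t) ⁻¹' Ioo 0 1 = Ioo 0 1 := by
  ext x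
  simp only [mem_preimage, mem_Ioo]
  constructor <;> rintro ⟨a, b⟩ <;> constructor <;> linarith

theorem ll_rev (h : St M) {a b : M.pt} : LL (rev M) a b ↔ LL M b a := by
  constructor
  · rintro ⟨c, k, rfl, rfl⟩
    have := (cv_rev h 1).1 k
    rw [pre_icc] at this
    exact ⟨_, this, by simp, by simp⟩
  · rintro ⟨c, k, rfl, rfl⟩
    have := flip h.sp 1 k
    rw [pre_icc] at this
    exact ⟨_, this, by simp, by simp⟩

theorem le_rev (h : St M) {a b : M.pt} : Le (rev M) a b ↔ Le M b a :=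
  ⟨fun k => ⟨fun z l => (ll_rev h).1 (k.2 z ((ll_rev h).2 l)),
      fun w l => (ll_rev h).1 (k.1 w ((ll_rev h).2 l))⟩,
    fun k => ⟨fun z l => (ll_rev h).2 (k.2 z ((ll_rev h).1 l)),
      fun w l => (ll_rev h).2 (k.1 w ((ll_rev h).1 l))⟩⟩

theorem fu_rev (h : St M) (S : Set M.pt) : Fu (rev M) S = Pa M S :=
  Set.ext fun _ => exists_congr fun _ => and_congr_right fun _ => ll_rev h

theorem pa_rev (h : St M) (S : Set M.pt) : Pa (rev M) S = Fu M S :=
  Set.ext fun _ => exists_congr fun _ => and_congr_right fun _ => ll_rev h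

theorem tend_lr : Tendsto (fun t : ℝ => 1 - t) (𝓝[>] 0) (𝓝[<] 1) :=
  tendsto_nhdsWithin_iff.2 ⟨by
    simpa using ((continuous_sub_left (1 : ℝ)).tendsto 0).mono_left nhdsWithin_le_nhds,
    eventually_mem_nhdsWithin.mono fun _ m => mem_Iio.2 (sub_lt_self _ (mem_Ioi.1 m))⟩

theorem tend_rl : Tendsto (fun t : ℝ => 1 - t) (𝓝[<] 1) (𝓝[>] 0) :=
  tendsto_nhdsWithin_iff.2 ⟨by
    simpa using ((continuous_sub_left (1 : ℝ)).tendsto 1).mono_left nhdsWithin_le_nhds,
    eventually_mem_nhdsWithin.mono fun _ m => mem_Ioi.2 (sub_pos.2 (mem_Iio.1 m))⟩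

theorem gh0_rev {S : Set M.pt} (h : GH0 M S) : GH0 (rev M) S where
  st := st_rev h.st
  sc := h.sc
  cauchy c k n := by
    have k' := (cv_rev h.st 1).1 k
    rw [pre_ioo] at k'
    obtain ⟨t, ⟨t1, t2⟩, t3⟩ := h.cauchy _ k' fun x =>
      ⟨fun l => (n x).2 (by simpa [Function.comp_def] using l.comp tend_lr),
        fun l => (n x).1 (by simpa [Function.comp_def] using l.comp tend_rl)⟩
    refine ⟨1 - t, ⟨⟨by linarith [t1.2], by linarith [t1.1]⟩, t2⟩, fun u ⟨u1, u2⟩ => ?_⟩
    have := t3 (1 - u) ⟨⟨by linarith [u1.2], by linarith [u1.1]⟩, by simpa using u2⟩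
    linarith

theorem gh_rev {S : Set M.pt} (h : GH M S) : GH (rev M) S where
  toGH0 := gh0_rev h.toGH0
  ac s a s' b l := (h.ac s' b s a ((le_rev h.st).1 l)).symm

theorem hull_rev (h : St M) {S U : Set M.pt} : Hull (rev M) S U ↔ Hull M S U := by
  constructor
  · intro k
    exact ⟨k.op, fun x a w l n => k.up x a w ((ll_rev h).2 l) (by rwa [fu_rev h]),
      fun x a w l n => k.dn x a w ((ll_rev h).2 l) (by rwa [pa_rev h])⟩
  · intro k
    exact ⟨k.op, fun x a w l n => k.up x a w ((ll_rev h).1 l) (by rwa [pa_rev h] at n),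
      fun x a w l n => k.dn x a w ((ll_rev h).1 l) (by rwa [fu_rev h] at n)⟩

/-- The atlas as a charted space. -/
noncomputable abbrev chs (M : Spc) : ChartedSpace R4 M.pt where
  atlas := range M.toE
  chartAt p := M.toE (M.cover p).choose
  mem_chart_source p := (M.cover p).choose_spec
  chart_mem_atlas _ := mem_range_self _

theorem lc (M : Spc) : LocallyCompactSpace M.pt :=
  letI := chs M
  ChartedSpace.locallyCompactSpace R4 M.pt

theorem met (M : Spc) (h : SecondCountableTopology M.pt) :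
    TopologicalSpace.MetrizableSpace M.pt :=
  haveI := lc M
  inferInstance

end Vale.Agent.P354CB38
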